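import Vale.Agent.P155.NT814.US.Def
import Vale.Agent.P155.NT34.LowW
import Vale.Agent.P155.NT.PathDet

/-!
# P155, NT, block US: the strand of an excursion (free path), the walls, the first new vertex
-/

namespace Vale.Agent.P155.NT814.US

open Finset Vale.Agent.P155 T802 T862 T905 J NT NT733 Function Skel NT802 NT276

variable {T : Temp} {xS : ℤ} {ω ω' : Conf} {q : Pt} {r k : ℕ}

theorem V_closed {v : Pt} (h : v ∈ T.V) : v ∈ T.closedVerts := by
  unfold Temp.V at h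
  split_ifs at h with h1
  · exact ((Set.Finite.mem_toFinset h1).1 h).1
  · simp at h

/-- the points of an excursion on the path of its loop -/
theorem exc_pt (hω : ω ∈ DD T.V) (hr : 1 ≤ r) (hx : (16 * r : ℤ) ≤ |q.1 - xS|) {j : ℕ}
    (hnx : eN T xS ω q r k + j < xN T xS ω q r k) :
    gN T xS ω (eN T xS ω q r k + j) = go ω (xS, (Tm.tm T.V xS ω (eN T xS ω q r k)).1)
        ((Tm.tm T.V xS ω (eN T xS ω q r k)).2 + j) ∧
      (Tm.tm T.V xS ω (eN T xS ω q r k)).2 + j <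
        (comp ω (xS, (Tm.tm T.V xS ω (eN T xS ω q r k)).1)).ncard := by
  have h1 := NT34.exc_run hω hr hx (n := eN T xS ω q r k + j) (by omega) hnx j le_rfl
  have W := walk hω xS
  have hxM : xN T xS ω q r k ≤ Tm.M T.V xS ω := exi_le _
  obtain ⟨-, -, h2⟩ := W.valid _ (lt_of_lt_of_le hnx hxM)
  rw [h1] at h2
  refine ⟨?_, h2⟩
  unfold gN pt'
  rw [h1]

theorem mem_V_gN (hω : ω ∈ DD T.V) {n : ℕ} (hn : n < Tm.M T.V xS ω) : gN T xS ω n ∈ T.V :=
  Tm.p_mem hω hn

/-- the strand is free -/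
theorem free (hω : ω ∈ DD T.V) (hr : 1 ≤ r) (hx : (16 * r : ℤ) ≤ |q.1 - xS|) {n : ℕ}
    (hen : eN T xS ω q r k < n) (hnx : n < xN T xS ω q r k) :
    gN T xS ω n ∉ SS T (EN T xS ω q r k) := by
  have W := walk hω xS
  have hxM : xN T xS ω q r k ≤ Tm.M T.V xS ω := exi_le _
  obtain ⟨j, rfl⟩ : ∃ j, n = eN T xS ω q r k + j := ⟨n - eN T xS ω q r k, by omega⟩
  obtain ⟨h1, h2⟩ := exc_pt hω hr hx hnx
  have hk : eN T xS ω q r k < Tm.M T.V xS ω := by omega
  obtain ⟨hsV, hsE, -⟩ := W.valid _ hk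
  have hne := W.ne_exc hω hr hx hk
  rintro (h | h)
  · rw [h1] at h
    exact go_notMem_Eti hω hne hsE (i := (Tm.tm T.V xS ω (eN T xS ω q r k)).2) (by omega) h2 h
  · exact h (V_closed (mem_V_gN hω (by omega)))

/-- steps of the strand -/
theorem adj (hω : ω ∈ DD T.V) (hr : 1 ≤ r) (hx : (16 * r : ℤ) ≤ |q.1 - xS|) {n : ℕ}
    (hen : eN T xS ω q r k ≤ n) (hnx : n + 1 < xN T xS ω q r k) :
    Adj (gN T xS ω n) (gN T xS ω (n + 1)) := by
  have W := walk hω xS
  have hxM : xN T xS ω q r k ≤ Tm.M T.V xS ω := exi_le _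
  obtain ⟨j, rfl⟩ : ∃ j, n = eN T xS ω q r k + j := ⟨n - eN T xS ω q r k, by omega⟩
  obtain ⟨h1, h2⟩ := exc_pt hω hr hx (j := j) (k := k) (by omega)
  obtain ⟨h3, h4⟩ := exc_pt hω hr hx (j := j + 1) (k := k) (by omega)
  have hk : eN T xS ω q r k < Tm.M T.V xS ω := by omega
  obtain ⟨hsV, -, -⟩ := W.valid _ hk
  rw [h1, show eN T xS ω q r k + j + 1 = eN T xS ω q r k + (j + 1) by ring, h3, ← add_assoc]
  exact go_adj' hω hsV h2

/-- the walls are connected -/
theorem wconn (hω : ω ∈ DD T.V) {u : Pt} (hu : u ∈ SS T (EN T xS ω q r k)) :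
    Linked (PS T (EN T xS ω q r k)) u (xS, (Tm.tm T.V xS ω (eN T xS ω q r k)).1 - 1) :=
  conn hω hu

theorem eN_eq (ω : Conf) : (NT905.tE T.V xS q r k).N ω = eN T xS ω q r k := by
  unfold NT905.tE
  rw [Tm.entT_N]
  rfl

theorem v1N_eq (hω : ω ∈ DD T.V) (hr : 1 ≤ r) (hx : (16 * r : ℤ) ≤ |q.1 - xS|)
    (hnx : eN T xS ω q r k + 1 < xN T xS ω q r k) :
    gN T xS ω (eN T xS ω q r k + 1) = v1N T xS q r k ω := by
  have hxM : xN T xS ω q r k ≤ Tm.M T.V xS ω := exi_le _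
  unfold v1N
  rw [if_pos (by omega)]
  exact (exc_pt hω hr hx hnx).1

/-- the first new vertex is known at the beginning of the excursion -/
theorem at_v1 : NT905.At (NT905.tE T.V xS q r k) (v1N T xS q r k) where
  det ω hω ω' hω' hE := by
    have e0 := (NT905.tE T.V xS q r k).det ω hω ω' hω' hE
    have hlt := (NT905.at_lt (NT905.tE T.V xS q r k)).det ω hω ω' hω' hE
    have etm := Tm.tm_onE hω hω' hE _ le_rfl
    simp only [eN_eq] at e0 hlt etm hE
    unfold v1N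
    rw [e0] at hlt ⊢
    rw [etm]
    by_cases h : eN T xS ω q r k < Tm.M T.V xS ω
    · rw [if_pos h, if_pos (by rw [hlt]; exact h)]
      exact Go.go_onE hω hω' hE ((walk hω xS).valid _ h).2.1 _ le_rfl
    · rw [if_neg h, if_neg (by rw [hlt]; exact h)]
  uns ω hω ω' hω' hU := by
    have e0 := (NT905.tE T.V xS q r k).uns ω hω ω' hω' hU
    simp only [eN_eq] at e0
    unfold v1N
    rw [e0, Tm.M_uns hU, Tm.tm_uns hU]
    by_cases h : eN T xS ω q r k < Tm.M T.V xS ω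
    · rw [if_pos h, if_pos h]
      exact Go.go_uns hω hω' hU ((walk hω xS).valid _ h).2.1 _
    · rw [if_neg h, if_neg h]

/-- the explored set is known at the beginning of the excursion -/
theorem at_EN : NT905.At (NT905.tE T.V xS q r k) (fun ω => EN T xS ω q r k) := by
  refine (NT905.at_En (NT905.tE T.V xS q r k)).congr fun ω _ => ?_
  rw [eN_eq]
  rfl

end Vale.Agent.P155.NT814.US
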