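import Vale.Agent.P155.NT924.BMx

/-!
# P155, NT, block US: the one-point estimate at a fixed scale `κ` (exact statement)
-/

namespace Vale.Agent.P155.NT814.US

open Finset Vale.Agent.P155 T802 T905 J NT NT733 Function Skel NT802 NT276 NT862

/-- what is known at the beginning of the excursion: SEP zone, `z` free, at the wall, away from the
polygon, joined to `v₁`; `x` is a balanced face (`BalF`) with `κ ≤ dist(x, explored) ≤ 2 κ` -/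
structure OPHyp (T : Temp) (xS : ℤ) (ω : Conf) (q : Pt) (r r1 r2 k : ℕ) (dR : ℕ) (θR : ℝ)
    (D N s κ : ℕ) (z x : Pt) : Prop where
  lt : eN T xS ω q r k < Tm.M T.V xS ω
  sep : SepN T xS ω q r k r1 dR
  box : z ∈ box q r2
  poly : ∀ f ∉ T.faceSet, θR ≤ dn f z
  free : z ∉ SS T (EN T xS ω q r k)
  wall : ∃ w ∈ SS T (EN T xS ω q r k), dn z w ≤ D
  conn : Conn {x | x ∉ SS T (EN T xS ω q r k)} (v1N T xS q r k ω) z
  lab : ∃ π, Lab T (EN T xS ω q r k) (v1N T xS q r k ω) z D π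
  bal : BalF T (EN T xS ω q r k) (v1N T xS q r k ω) z D N s κ x
  up : dF (OE T (EN T xS ω q r k)) x ≤ 2 * κ

/-- **OPF**: the one-point estimate at the scale `κ`.  (`ρ` = smallness of `N / R`, chosen by the
prover; `x`, `z`, `S` measurable at the beginning of the excursion.) -/
def OPF : Prop :=
  ∀ c δ d θ a1 : ℝ, 0 < c → 0 < δ → 0 < d → 0 < θ → 0 < a1 → a1 < 1 / 512 →
  ∃ ρ : ℝ, 0 < ρ ∧ ∃ b : ℝ, 0 < b ∧ ∃ C : ℝ, 0 ≤ C ∧ ∃ R0 : ℕ, ∀ R : ℕ, R0 ≤ R →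
  ∀ T : Temp, Fits T R → ∀ (xS : ℤ) (q : Pt) (r r1 r2 k : ℕ), c * R ≤ r → r ≤ R →
  (16 * r : ℤ) ≤ |q.1 - xS| → (r2 : ℝ) + δ * R ≤ r1 → r1 + 3 ≤ 2 * r →
  ∀ D N s κ : ℕ, (N : ℝ) ≤ ρ * R → 4 * (D + 1) ≤ s → 4 * (2 * s + 1) ≤ N → (R : ℝ) ^ a1 ≤ κ →
  κ ≤ 3 * s →
  ∀ (S : Conf → Prop) (z x : Conf → Pt), NT905.At (NT905.tE T.V xS q r k) S →
  NT905.At (NT905.tE T.V xS q r k) z → NT905.At (NT905.tE T.V xS q r k) x →
  (∀ ω ∈ DD T.V, S ω →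
    OPHyp T xS ω q r r1 r2 k ⌊d * R⌋₊ (θ * R) D N s κ (z ω) (x ω)) →
  Pr T.V (fun ω => S ω ∧ Vis T xS ω q r k (z ω) D) ≤
    C * ((R : ℝ) ^ (-b) + ((κ : ℝ) / R) ^ b)

end Vale.Agent.P155.NT814.US
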