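import Vale.Agent.P155.NT814.US.Strand
import Vale.Agent.P155.NT802.SubRun
import Vale.Agent.P155.NT878.Cls
import Vale.Agent.P155.A801.NXTQ

/-!
# P155, NT, block US: assembly

`USF F` from the one-point estimate `OPX`, `BDrun F` and the deterministic statement `Cand`:
a glued crossing of an annulus makes the strand visit a small free ball around one of finitely many
measurable points.
-/

namespace Vale.Agent.P155.NT814.US

open Finset Vale.Agent.P155 T802 T862 T905 J NT NT733 Function Skel NT802 NT276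

/-- **the deterministic input**: candidates `zz … i ω`, `i < 4 K`. -/
structure CandP (zz : Temp → ℤ → Pt → ℕ → ℕ → Pt → ℕ → ℕ → ℕ → Conf → Pt) : Prop where
  meas : ∀ (T : Temp) (xS : ℤ) (q : Pt) (r k : ℕ) (y : Pt) (u h i : ℕ),
    NT905.At (NT905.tE T.V xS q r k) (zz T xS q r k y u h i)
  vis : ∀ (T : Temp) (xS : ℤ) (ω : Conf) (q : Pt) (r k : ℕ) (y : Pt) (u h r2 n3 n4 K : ℕ),
    ω ∈ DD T.V → 1 ≤ r → (16 * r : ℤ) ≤ |q.1 - xS| → 8 * h + 64 ≤ u → r2 + 12 * u ≤ 2 * r →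
    12 * u ≤ r → (∀ f ∉ T.faceSet, 20 * u < dn f y) →
    NX ω y (2 * u) (4 * u - 1) ≤ K → NX ω y (4 * u + 1) (6 * u) ≤ K →
    eN T xS ω q r k ≤ n3 → n3 < xN T xS ω q r k → eN T xS ω q r k ≤ n4 → n4 < xN T xS ω q r k →
    (∀ n, min n3 n4 ≤ n → n ≤ max n3 n4 → gN T xS ω n ∈ box q r2 ∧ NT276.Near T xS ω q r k h n) →
    dn y (gN T xS ω n3) ≤ u → 8 * u < dn y (gN T xS ω n4) →
    ∃ i < 4 * K, dn y (zz T xS q r k y u h i ω) ≤ 9 * u ∧
      zz T xS q r k y u h i ω ∉ SS T (EN T xS ω q r k) ∧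
      (∃ w ∈ SS T (EN T xS ω q r k), dn (zz T xS q r k y u h i ω) w ≤ 1) ∧
      Conn {x | x ∉ SS T (EN T xS ω q r k)} (v1N T xS q r k ω) (zz T xS q r k y u h i ω) ∧
      Vis T xS ω q r k (zz T xS q r k y u h i ω) (4 * h + 8)

theorem Vis.mono {T : Temp} {xS : ℤ} {ω : Conf} {q : Pt} {r k : ℕ} {z : Pt} {D D' : ℕ}
    (hD : D ≤ D') (h : Vis T xS ω q r k z D) : Vis T xS ω q r k z D' := by
  obtain ⟨n, h1, h2, h3⟩ := h
  refine ⟨n, h1, h2, Relation.ReflTransGen.mono ?_ _ _ h3⟩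
  rintro a b ⟨k1, k2, k3, k4⟩
  exact ⟨k1, k2, k3.trans hD, k4.trans hD⟩

/-- the grid points near a box -/
noncomputable def grid (q : Pt) (r u N : ℕ) : Finset Pt :=
  (Finset.Icc (-(N : ℤ)) N ×ˢ Finset.Icc (-(N : ℤ)) N).image
    (fun p => ((u : ℤ) * (q.1 / u + p.1), (u : ℤ) * (q.2 / u + p.2)))

theorem grid_card (q : Pt) (r u N : ℕ) : (grid q r u N).card ≤ (2 * N + 1) ^ 2 := by
  unfold grid
  refine Finset.card_image_le.trans ?_
  rw [Finset.card_product, Int.card_Icc]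
  have : ((N : ℤ) + 1 - -(N : ℤ)).toNat = 2 * N + 1 := by omega
  rw [this, sq]

theorem mem_grid {q : Pt} {r u N : ℕ} {a b : ℤ} (hu : 1 ≤ u) (hN : r + u ≤ N * u)
    (h : dn q ((u : ℤ) * a, (u : ℤ) * b) ≤ r) : ((u : ℤ) * a, (u : ℤ) * b) ∈ grid q r u N := by
  have h1 := (T802.dn_le_iff (p := q) (x := ((u : ℤ) * a, (u : ℤ) * b)) (r := r)).1 h
  simp only at h1
  unfold grid
  rw [Finset.mem_image]
  have hu0 : (0 : ℤ) < u := by exact_mod_cast hu
  have e1 := Int.emod_nonneg q.1 hu0.ne'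
  have e2 := Int.emod_lt_of_pos q.1 hu0
  have e3 := Int.emod_nonneg q.2 hu0.ne'
  have e4 := Int.emod_lt_of_pos q.2 hu0
  have e5 := Int.mul_ediv_add_emod q.1 u
  have e6 := Int.mul_ediv_add_emod q.2 u
  have hN' : (r : ℤ) + u ≤ N * u := by exact_mod_cast hN
  refine ⟨(a - q.1 / u, b - q.2 / u), ?_, ?_⟩
  · rw [Finset.mem_product, Finset.mem_Icc, Finset.mem_Icc]
    simp only
    refine ⟨⟨?_, ?_⟩, ⟨?_, ?_⟩⟩
    · by_contra hc
      have : a - q.1 / u + 1 ≤ -(N : ℤ) := by omega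
      have := mul_le_mul_of_nonneg_left this hu0.le
      nlinarith
    · by_contra hc
      have : (N : ℤ) + 1 ≤ a - q.1 / u := by omega
      have := mul_le_mul_of_nonneg_left this hu0.le
      nlinarith
    · by_contra hc
      have : b - q.2 / u + 1 ≤ -(N : ℤ) := by omega
      have := mul_le_mul_of_nonneg_left this hu0.le
      nlinarith
    · by_contra hc
      have : (N : ℤ) + 1 ≤ b - q.2 / u := by omega
      have := mul_le_mul_of_nonneg_left this hu0.le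
      nlinarith
  · simp only [Prod.mk.injEq]
    constructor <;> ring

end Vale.Agent.P155.NT814.US
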