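import Vale.Agent.P155.NT814.US.Asm
import Vale.Agent.P155.NT730.GlueB
import Vale.Agent.P155.NT730.NearE

/-!
# P155, NT, block US: the candidates
-/

namespace Vale.Agent.P155.NT814.US

open Finset Vale.Agent.P155 T802 T862 T905 J NT NT733 Function Skel NT802 NT276 NT730 NT904 NT924

/-- the finite set of the ring around `y` -/
noncomputable def ZN (T : Temp) (xS : ℤ) (q : Pt) (r k : ℕ) (y : Pt) (u : ℕ) (ω : Conf) :
    Finset Pt :=
  Zf T ω (EN T xS ω q r k) y (4 * u) (2 * u) (6 * u) (v1N T xS q r k ω)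

/-- the outermost small cut for the point `e` -/
noncomputable def zB (T : Temp) (xS : ℤ) (q : Pt) (r k : ℕ) (y : Pt) (u h : ℕ) (ω : Conf)
    (e : Pt) : Pt :=
  kzB (FV T (EN T xS ω q r k)) (SS T (EN T xS ω q r k)) {v | dn y v ≤ 9 * u}
    (v1N T xS q r k ω) e (h + 1)

/-- the candidates -/
noncomputable def cand (T : Temp) (xS : ℤ) (q : Pt) (r k : ℕ) (y : Pt) (u h i : ℕ) (ω : Conf) : Pt :=
  zB T xS q r k y u h ω ((ZN T xS q r k y u ω).toList.getD i (0, 0))

variable {T : Temp} {xS : ℤ} {ω : Conf} {q y : Pt} {r k u h : ℕ}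

theorem at_ZN : NT905.At (NT905.tE T.V xS q r k) (ZN T xS q r k y u) where
  det ω hω ω' hω' hE := by
    have e1 := (at_EN (T := T) (xS := xS) (q := q) (r := r) (k := k)).det ω hω ω' hω' hE
    have e2 := (at_v1 (T := T) (xS := xS) (q := q) (r := r) (k := k)).det ω hω ω' hω' hE
    unfold ZN
    rw [e1, e2]
    refine (Zf_congr_E fun v hv => ?_).symm
    refine Go.PEq.of_onE hE ?_
    rw [eN_eq]
    exact hv
  uns ω hω ω' hω' hU := by
    have e1 := (at_EN (T := T) (xS := xS) (q := q) (r := r) (k := k)).uns ω hω ω' hω' hU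
    have e2 := (at_v1 (T := T) (xS := xS) (q := q) (r := r) (k := k)).uns ω hω ω' hω' hU
    unfold ZN
    rw [e1, e2]
    exact (Zf_congr_E fun v _ => Go.PEq.of_uEq hU v).symm

theorem at_cand (i : ℕ) : NT905.At (NT905.tE T.V xS q r k) (cand T xS q r k y u h i) where
  det ω hω ω' hω' hE := by
    have e1 := (at_EN (T := T) (xS := xS) (q := q) (r := r) (k := k)).det ω hω ω' hω' hE
    have e2 := (at_v1 (T := T) (xS := xS) (q := q) (r := r) (k := k)).det ω hω ω' hω' hE
    have e3 := (at_ZN (T := T) (xS := xS) (q := q) (r := r) (k := k) (y := y) (u := u)).det ω hω ω' hω' hE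
    unfold cand zB
    rw [e1, e2, e3]
  uns ω hω ω' hω' hU := by
    have e1 := (at_EN (T := T) (xS := xS) (q := q) (r := r) (k := k)).uns ω hω ω' hω' hU
    have e2 := (at_v1 (T := T) (xS := xS) (q := q) (r := r) (k := k)).uns ω hω ω' hω' hU
    have e3 := (at_ZN (T := T) (xS := xS) (q := q) (r := r) (k := k) (y := y) (u := u)).uns ω hω ω' hω' hU
    unfold cand zB
    rw [e1, e2, e3]

theorem cut_fwd {f : ℕ → ℕ} {A d : ℕ} (h0 : f 0 ≤ A) (hd : A < f d)
    (hstep : ∀ i < d, f (i + 1) ≤ f i + 1) : ∃ d' ≤ d, A < f d' ∧ ∀ i ≤ d', f i ≤ A + 1 := by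
  classical
  have hex : ∃ n, A < f n := ⟨d, hd⟩
  have h1 := Nat.find_spec hex
  have h2 : Nat.find hex ≤ d := Nat.find_min' hex hd
  refine ⟨Nat.find hex, h2, h1, fun i hi => ?_⟩
  rcases Nat.lt_or_ge i (Nat.find hex) with h3 | h3
  · have := Nat.find_min hex h3
    omega
  · have e : i = Nat.find hex := le_antisymm hi h3
    rcases Nat.eq_zero_or_pos i with h4 | h4
    · rw [h4]; omega
    · have h5 := Nat.find_min hex (m := i - 1) (by omega)
      have h6 := hstep (i - 1) (by omega)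
      rw [show i - 1 + 1 = i by omega] at h6
      omega

/-- cut a piece at its first exit of a box -/
theorem cut {g : ℕ → Pt} {y : Pt} {A n3 n4 : ℕ} (h3 : dn y (g n3) ≤ A) (h4 : A < dn y (g n4))
    (hstep : ∀ n, min n3 n4 ≤ n → n < max n3 n4 → dn (g n) (g (n + 1)) ≤ 1) :
    ∃ n5, min n3 n4 ≤ n5 ∧ n5 ≤ max n3 n4 ∧ A < dn y (g n5) ∧
      ∀ n, min n3 n5 ≤ n → n ≤ max n3 n5 →
        min n3 n4 ≤ n ∧ n ≤ max n3 n4 ∧ dn y (g n) ≤ A + 1 := by
  rcases Nat.lt_or_ge n4 n3 with hlt | hge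
  · obtain ⟨d', hd', k1, k2⟩ := cut_fwd (f := fun i => dn y (g (n3 - i))) (A := A) (d := n3 - n4)
      (by simpa using h3) (by
        show A < dn y (g (n3 - (n3 - n4)))
        rw [show n3 - (n3 - n4) = n4 by omega]; exact h4) (by
        intro i hi
        have h5 := hstep (n3 - (i + 1)) (by omega) (by omega)
        rw [show n3 - (i + 1) + 1 = n3 - i by omega] at h5
        have h6 := H904.dn_tri y (g (n3 - i)) (g (n3 - (i + 1)))
        rw [H904.dn_comm (g (n3 - i)) (g (n3 - (i + 1)))] at h6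
        show dn y (g (n3 - (i + 1))) ≤ dn y (g (n3 - i)) + 1
        omega)
    refine ⟨n3 - d', by omega, by omega, k1, fun n a1 a2 => ⟨by omega, by omega, ?_⟩⟩
    have := k2 (n3 - n) (by omega)
    rwa [show n3 - (n3 - n) = n by omega] at this
  · obtain ⟨d', hd', k1, k2⟩ := cut_fwd (f := fun i => dn y (g (n3 + i))) (A := A) (d := n4 - n3)
      (by simpa using h3) (by
        show A < dn y (g (n3 + (n4 - n3)))
        rw [show n3 + (n4 - n3) = n4 by omega]; exact h4) (by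
        intro i hi
        have h5 := hstep (n3 + i) (by omega) (by omega)
        have h6 := H904.dn_tri y (g (n3 + i)) (g (n3 + i + 1))
        show dn y (g (n3 + (i + 1))) ≤ dn y (g (n3 + i)) + 1
        rw [show n3 + (i + 1) = n3 + i + 1 by ring]
        omega)
    refine ⟨n3 + d', by omega, by omega, k1, fun n a1 a2 => ⟨by omega, by omega, ?_⟩⟩
    have := k2 (n - n3) (by omega)
    rwa [show n3 + (n - n3) = n by omega] at this

theorem corner_dn {a w : Pt} (h : w ∈ corners a) : dn a w ≤ 1 := by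
  rw [T802.dn_le_iff]
  rw [mem_corners] at h
  push_cast
  omega

theorem cand_vis {r2 n3 n4 K : ℕ} (hω : ω ∈ DD T.V) (hr : 1 ≤ r)
    (hx : (16 * r : ℤ) ≤ |q.1 - xS|) (hu : 8 * h + 64 ≤ u) (hr2 : r2 + 12 * u ≤ 2 * r)
    (hur : 12 * u ≤ r) (hT : ∀ f ∉ T.faceSet, 20 * u < dn f y)
    (hK1 : NX ω y (2 * u) (4 * u - 1) ≤ K) (hK2 : NX ω y (4 * u + 1) (6 * u) ≤ K)
    (e3 : eN T xS ω q r k ≤ n3) (x3 : n3 < xN T xS ω q r k) (e4 : eN T xS ω q r k ≤ n4)
    (x4 : n4 < xN T xS ω q r k)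
    (hnear : ∀ n, min n3 n4 ≤ n → n ≤ max n3 n4 → gN T xS ω n ∈ box q r2 ∧
      NT276.Near T xS ω q r k h n)
    (h3 : dn y (gN T xS ω n3) ≤ u) (h4 : 8 * u < dn y (gN T xS ω n4)) :
    ∃ i < 4 * K, dn y (cand T xS q r k y u h i ω) ≤ 9 * u ∧
      cand T xS q r k y u h i ω ∉ SS T (EN T xS ω q r k) ∧
      (∃ w ∈ SS T (EN T xS ω q r k), dn (cand T xS q r k y u h i ω) w ≤ 1) ∧
      Conn {x | x ∉ SS T (EN T xS ω q r k)} (v1N T xS q r k ω) (cand T xS q r k y u h i ω) ∧
      Vis T xS ω q r k (cand T xS q r k y u h i ω) (4 * h + 8) := by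
  classical
  have W := walk hω xS
  have hxM : xN T xS ω q r k ≤ Tm.M T.V xS ω := exi_le _
  have hk : eN T xS ω q r k < Tm.M T.V xS ω := by omega
  have hent := NT34.ent_dn hω hr hx hk
  -- times are after the entry
  have hin2 : ∀ n, min n3 n4 ≤ n → n ≤ max n3 n4 → dn q (gN T xS ω n) ≤ r2 := fun n a1 a2 =>
    J.dn_le_iff.2 (hnear n a1 a2).1
  have hlt : ∀ n, min n3 n4 ≤ n → n ≤ max n3 n4 → eN T xS ω q r k < n ∧ n < xN T xS ω q r k := by
    intro n a1 a2
    have h5 := hin2 n a1 a2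
    have h6 : n ≠ eN T xS ω q r k := by
      rintro rfl
      omega
    constructor
    · omega
    · omega
  obtain ⟨h3l, _⟩ := hlt n3 (by omega) (by omega)
  obtain ⟨h4l, _⟩ := hlt n4 (by omega) (by omega)
  -- the position of `y`
  have hyq : dn q y ≤ r2 + u := by
    have h5 := hin2 n3 (by omega) (by omega)
    have h6 := H904.dn_tri q (gN T xS ω n3) y
    rw [H904.dn_comm (gN T xS ω n3) y] at h6
    omega
  have hline : ((12 * u : ℕ) : ℤ) < |y.1 - xS| := by
    have h5 := (T802.dn_le_iff (p := q) (x := y) (r := r2 + u)).1 hyq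
    rw [lt_abs]
    rw [le_abs] at hx
    push_cast at h5 ⊢
    omega
  -- cut the piece
  obtain ⟨n5, c1, c2, c3, c4⟩ := cut (g := gN T xS ω) (y := y) (A := 8 * u) (n3 := n3) (n4 := n4)
    (by omega) h4 (by
      intro n a1 a2
      exact dn_le_one_of_adj (adj hω hr hx (k := k) (by have := hlt n a1 a2.le; omega)
        (by have := hlt (n + 1) (by omega) (by omega); omega)))
  obtain ⟨h5l, h5x⟩ := hlt n5 c1 c2
  have hv1 : gN T xS ω (eN T xS ω q r k + 1) = v1N T xS q r k ω := v1N_eq hω hr hx (by omega)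
  have hv1q : 2 * r ≤ dn q (v1N T xS q r k ω) + 1 := by
    have h6 := dn_le_one_of_adj (adj hω hr hx (n := eN T xS ω q r k) (k := k) le_rfl (by omega))
    rw [hv1] at h6
    have h7 := H904.dn_tri q (v1N T xS q r k ω) (gN T xS ω (eN T xS ω q r k))
    rw [H904.dn_comm (v1N T xS q r k ω)] at h7
    omega
  -- the walls
  have hfaces : ∀ f ∉ T.faceSet, 6 * u ≤ dn f y := fun f hf => by have := hT f hf; omega
  have hW := wconnL (ω := ω) (q := q) (r := r) (k := k) (y := y) (b := 6 * u) (T := T) (xS := xS) hω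
    (fun v hv => closed_of_far hfaces hv) (by push_cast at hline ⊢; omega)
  have hnearE : NT730.Near ω (EN T xS ω q r k) y (6 * u) := by
    refine near_of hω hr hx hk (by push_cast at hline ⊢; omega) ?_
    have h7 := H904.dn_tri q y (gN T xS ω (eN T xS ω q r k))
    omega
  have hcard := Zf_card (T := T) (v1 := v1N T xS q r k ω) hω hnearE
    (fun v hv hb => ss_of_far hfaces hv hb) (a := 2 * u) (s := 4 * u) (by omega) (by omega)
  -- the visit
  obtain ⟨z, hz, n, hn, hvis⟩ := glued_visitB (T := T) (y := y) (a := 2 * u) (s := 4 * u)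
    (b := 6 * u) hω hW (by omega) (by omega)
    (g := fun j => gN T xS ω (eN T xS ω q r k + 1 + j)) (N := xN T xS ω q r k - 2 - eN T xS ω q r k)
    (h := h + 1) (n3 := n3 - (eN T xS ω q r k + 1)) (n4 := n5 - (eN T xS ω q r k + 1))
    (fun i hi => adj hω hr hx (k := k) (by omega) (by omega))
    (fun i hi => free hω hr hx (k := k) (by omega) (by omega))
    (by omega) (by omega)
    (by
      intro i a1 a2
      obtain ⟨k1, k2, -⟩ := c4 (eN T xS ω q r k + 1 + i) (by omega) (by omega)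
      obtain ⟨-, a, ha, hda⟩ := hnear _ k1 k2
      obtain ⟨w, hw1, hw2⟩ := exists_corner (T := T) (E := EN T xS ω q r k) ha
      refine ⟨w, hw2, ?_⟩
      have h6 := corner_dn hw1
      have h7 := H904.dn_tri (gN T xS ω (eN T xS ω q r k + 1 + i)) a w
      omega)
    (by
      show dn y (gN T xS ω (eN T xS ω q r k + 1 + (n3 - (eN T xS ω q r k + 1)))) + (h + 1) ≤ 2 * u
      rw [show eN T xS ω q r k + 1 + (n3 - (eN T xS ω q r k + 1)) = n3 by omega]
      omega)
    (by
      show 6 * u + (h + 1) ≤ dn y (gN T xS ω (eN T xS ω q r k + 1 + (n5 - (eN T xS ω q r k + 1))))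
      rw [show eN T xS ω q r k + 1 + (n5 - (eN T xS ω q r k + 1)) = n5 by omega]
      omega)
    (D := {v | dn y v ≤ 9 * u})
    (by
      intro i a1 a2 v hv
      obtain ⟨-, -, k3⟩ := c4 (eN T xS ω q r k + 1 + i) (by omega) (by omega)
      have h7 := H904.dn_tri y (gN T xS ω (eN T xS ω q r k + 1 + i)) v
      show dn y v ≤ 9 * u
      omega)
    (by
      intro i a1 a2
      obtain ⟨k1, k2, -⟩ := c4 (eN T xS ω q r k + 1 + i) (by omega) (by omega)
      have h6 := hin2 _ k1 k2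
      have h7 := H904.dn_tri q (gN T xS ω (eN T xS ω q r k + 1 + i)) (v1N T xS q r k ω)
      show h + 1 + 1 < dn (gN T xS ω (eN T xS ω q r k + 1 + i)) (gN T xS ω (eN T xS ω q r k + 1 + 0))
      rw [add_zero, hv1]
      omega)
  simp only [add_zero, hv1] at hz hvis
  have hzZ : z ∈ ZN T xS q r k y u ω := hz
  obtain ⟨m1, m2, m3, m4, w, m5, m6⟩ := mem_Zf (by omega) hz
  -- the index
  obtain ⟨i, hi, hiz⟩ := List.getElem_of_mem (Finset.mem_toList.2 hzZ)
  rw [Finset.length_toList] at hi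
  have hc : cand T xS q r k y u h i ω = zB T xS q r k y u h ω z := by
    unfold cand
    congr 1
    rw [List.getD_eq_getElem?_getD, List.getElem?_eq_getElem (by rw [Finset.length_toList]; exact hi),
      Option.getD_some, hiz]
  have hi4 : i < 4 * K := by
    refine lt_of_lt_of_le hi (hcard.trans ?_)
    omega
  refine ⟨i, hi4, ?_⟩
  rw [hc]
  have hcases : zB T xS q r k y u h ω z = z ∨ (dn y (zB T xS q r k y u h ω z) ≤ 9 * u ∧
      zB T xS q r k y u h ω z ∉ SS T (EN T xS ω q r k) ∧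
      ∃ w ∈ SS T (EN T xS ω q r k), Adj (zB T xS q r k y u h ω z) w) :=
    kzB_cases _ _ _ _ _ _
  refine ⟨?_, ?_, ?_, kzB_link m2, ?_⟩
  · rcases hcases with h6 | h6
    · rw [h6]; omega
    · exact h6.1
  · rcases hcases with h6 | h6
    · rw [h6]; exact m1
    · exact h6.2.1
  · rcases hcases with h6 | ⟨-, -, w', h7, h8⟩
    · rw [h6]; exact ⟨w, m5, m6⟩
    · exact ⟨w', h7, dn_le_one_of_adj h8⟩
  · refine ⟨eN T xS ω q r k + 1 + n, by omega, ?_, ?_⟩
    · have : n ≤ max n3 n4 - (eN T xS ω q r k + 1) := by omega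
      omega
    · have h9 : 4 * (h + 1) + 4 = 4 * h + 8 := by ring
      rw [← h9]
      exact hvis

theorem candP : CandP cand where
  meas _ _ _ _ _ _ _ _ i := at_cand i
  vis _ _ _ _ _ _ _ _ _ _ _ _ _ a1 a2 a3 a4 a5 a6 a7 a8 a9 b1 b2 b3 b4 b5 b6 b7 :=
    cand_vis a1 a2 a3 a4 a5 a6 a7 a8 a9 b1 b2 b3 b4 b5 b6 b7

end Vale.Agent.P155.NT814.US
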