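import Vale.Agent.P155.NT862.Sep
import Vale.Agent.P155.NT276.PigeonF
import Vale.Agent.P155.NT905.Step

/-!
# P155, NT, block US: the statement of the one-point estimate `OPX`
-/

namespace Vale.Agent.P155.NT814.US

open Finset Vale.Agent.P155 T802 T905 J NT NT733 Function Skel NT802 NT276

/-- the explored set at the beginning of the excursion `k` -/
noncomputable def EN (T : Temp) (xS : ℤ) (ω : Conf) (q : Pt) (r k : ℕ) : Set Pt :=
  EK xS ω (Tm.tm T.V xS ω) (Tm.M T.V xS ω) q r k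

open Classical in
/-- the first new vertex of the excursion `k` -/
noncomputable def v1N (T : Temp) (xS : ℤ) (q : Pt) (r k : ℕ) (ω : Conf) : Pt :=
  if eN T xS ω q r k < Tm.M T.V xS ω then
    go ω (xS, (Tm.tm T.V xS ω (eN T xS ω q r k)).1) ((Tm.tm T.V xS ω (eN T xS ω q r k)).2 + 1)
  else (0, 0)

/-- the strand of the excursion `k` comes into the free ball around `z` -/
def Vis (T : Temp) (xS : ℤ) (ω : Conf) (q : Pt) (r k : ℕ) (z : Pt) (D : ℕ) : Prop :=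
  ∃ n, eN T xS ω q r k < n ∧ n < xN T xS ω q r k ∧
    gN T xS ω n ∈ NT862.FB T (EN T xS ω q r k) z D

/-- **OPX** (one-point estimate): the strand does not come into a small free ball around a given
free vertex at the wall, away from the polygon. -/
def OPX : Prop :=
  ∀ c δ d θ ε : ℝ, 0 < c → 0 < δ → 0 < d → 0 < θ → 0 < ε → ∃ η : ℝ, 0 < η ∧ ∃ R0 : ℕ,
  ∀ R : ℕ, R0 ≤ R →
  ∀ T : Temp, Fits T R → ∀ (xS : ℤ) (q : Pt) (r r1 r2 k : ℕ), c * R ≤ r → r ≤ R →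
  (16 * r : ℤ) ≤ |q.1 - xS| → (r2 : ℝ) + δ * R ≤ r1 → r1 + 3 ≤ 2 * r →
  ∀ z : Conf → Pt, NT905.At (NT905.tE T.V xS q r k) z →
  Pr T.V (fun ω => SepN T xS ω q r k r1 ⌊d * R⌋₊ ∧
    z ω ∈ box q r2 ∧ (∀ f ∉ T.faceSet, θ * R ≤ dn f (z ω)) ∧
    z ω ∉ SS T (EN T xS ω q r k) ∧
    (∃ w ∈ SS T (EN T xS ω q r k), dn (z ω) w ≤ ⌊η * R⌋₊) ∧
    Conn {x | x ∉ SS T (EN T xS ω q r k)} (v1N T xS q r k ω) (z ω) ∧
    Vis T xS ω q r k (z ω) ⌊η * R⌋₊) ≤ ε

end Vale.Agent.P155.NT814.US
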