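import Vale.Agent.P155.NT814.US.Cand

/-!
# P155, NT, block US: `USF F` from `OPX` and `BDrun F`
-/

namespace Vale.Agent.P155.NT814.US

open Finset Vale.Agent.P155 T802 T862 T905 J NT NT733 Function Skel NT802 NT276

theorem le_dF {O : Set Pt} {x : Pt} {D : ℕ} (hO : ∃ y, y ∉ O) (h : ∀ y ∉ O, D ≤ dn y x) :
    D ≤ dF O x := by
  obtain ⟨y, hy, h1⟩ := H904.exists_dF hO x
  have := h y hy
  rw [H904.dn_comm] at this
  omega

theorem exists_face_out (T : Temp) {R : ℕ} (h : Fits T R) : ∃ y, y ∉ T.faceSet := by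
  refine ⟨((R : ℤ) + 5, 0), fun hc => ?_⟩
  have := h hc
  have h1 := mem_box_coord.1 this
  simp only at h1
  omega

/-- the numbers -/
theorem nums {θ l ηb δ c η η' : ℝ} {R r r1 r2 NG : ℕ} (hθ0 : 0 < θ) (t1 : 80 * θ ≤ l)
    (t2 : 80 * θ ≤ ηb) (t3 : 80 * θ ≤ δ) (t4 : 80 * θ ≤ c) (q1 : 16 * η' ≤ η)
    (q2 : 32 * η' ≤ θ) (hη' : 0 < η') (b1 : 400 ≤ θ * R) (b2 : 100 ≤ η * R) (hrR : r ≤ R)
    (hcr : c * R ≤ r) (hr2 : (r2 : ℝ) + δ * R ≤ r1) (hr1 : r1 + 3 ≤ 2 * r)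
    (hNG : 8 / θ + 4 ≤ NG) (hR0 : (0 : ℝ) < R) :
    399 ≤ ⌊θ * R⌋₊ ∧ 8 * ⌊η' * R⌋₊ + 64 ≤ ⌊θ * R⌋₊ ∧
    2 * (8 * ⌊θ * R⌋₊ + ⌊θ * R⌋₊) < ⌊l * R⌋₊ ∧ 30 * ⌊θ * R⌋₊ ≤ ⌊ηb * R⌋₊ ∧
    12 * ⌊θ * R⌋₊ ≤ r ∧ r2 + 12 * ⌊θ * R⌋₊ ≤ 2 * r ∧
    ((r2 + 10 * ⌊θ * R⌋₊ : ℕ) : ℝ) + δ / 2 * R ≤ r1 ∧ 4 * ⌊η' * R⌋₊ + 8 ≤ ⌊η * R⌋₊ ∧
    (2 * r + ⌊θ * R⌋₊) + ⌊θ * R⌋₊ ≤ NG * ⌊θ * R⌋₊ ∧ (⌊θ * R⌋₊ : ℝ) ≤ θ * R ∧
    θ * R < ⌊θ * R⌋₊ + 1 := by
  have s1 : 80 * (θ * R) ≤ l * R := by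
    rw [← mul_assoc]; exact mul_le_mul_of_nonneg_right t1 hR0.le
  have s2 : 80 * (θ * R) ≤ ηb * R := by
    rw [← mul_assoc]; exact mul_le_mul_of_nonneg_right t2 hR0.le
  have s3 : 80 * (θ * R) ≤ δ * R := by
    rw [← mul_assoc]; exact mul_le_mul_of_nonneg_right t3 hR0.le
  have s4 : 80 * (θ * R) ≤ c * R := by
    rw [← mul_assoc]; exact mul_le_mul_of_nonneg_right t4 hR0.le
  have s5 : 16 * (η' * R) ≤ η * R := by
    rw [← mul_assoc]; exact mul_le_mul_of_nonneg_right q1 hR0.le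
  have s6 : 32 * (η' * R) ≤ θ * R := by
    rw [← mul_assoc]; exact mul_le_mul_of_nonneg_right q2 hR0.le
  have hrRr : (r : ℝ) ≤ R := by exact_mod_cast hrR
  have u1 : (⌊θ * R⌋₊ : ℝ) ≤ θ * R := Nat.floor_le (by positivity)
  have u2 : θ * R < ⌊θ * R⌋₊ + 1 := Nat.lt_floor_add_one _
  have h1 : (⌊η' * R⌋₊ : ℝ) ≤ η' * R := Nat.floor_le (by positivity)
  have h2 : ηb * R < ⌊ηb * R⌋₊ + 1 := Nat.lt_floor_add_one _
  have h3 : l * R < ⌊l * R⌋₊ + 1 := Nat.lt_floor_add_one _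
  obtain ⟨u, hu⟩ : ∃ u : ℕ, u = ⌊θ * R⌋₊ := ⟨_, rfl⟩
  obtain ⟨h, hh⟩ : ∃ h : ℕ, h = ⌊η' * R⌋₊ := ⟨_, rfl⟩
  obtain ⟨h0, hh0⟩ : ∃ h0 : ℕ, h0 = ⌊ηb * R⌋₊ := ⟨_, rfl⟩
  obtain ⟨lR, hlR⟩ : ∃ lR : ℕ, lR = ⌊l * R⌋₊ := ⟨_, rfl⟩
  rw [← hu] at u1 u2 ⊢
  rw [← hh] at h1 ⊢
  rw [← hh0] at h2 ⊢
  rw [← hlR] at h3 ⊢
  have v6 : (r2 : ℝ) + 12 * u ≤ r1 := by linarith
  have v6' : r2 + 12 * u ≤ r1 := by exact_mod_cast v6
  refine ⟨?_, ?_, ?_, ?_, ?_, by omega, ?_, ?_, ?_, u1, u2⟩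
  · have : (399 : ℝ) ≤ u := by linarith
    exact_mod_cast this
  · have : (8 * h + 64 : ℝ) ≤ u := by linarith
    exact_mod_cast this
  · have : (2 * (8 * u + u) : ℝ) < lR := by linarith
    exact_mod_cast this
  · have : (30 * u : ℝ) ≤ h0 := by linarith
    exact_mod_cast this
  · have : (12 * u : ℝ) ≤ r := by linarith
    exact_mod_cast this
  · push_cast
    linarith
  · apply Nat.le_floor
    push_cast
    linarith
  · have e1 : (8 / θ + 4) * (u : ℝ) ≤ NG * u := mul_le_mul_of_nonneg_right hNG (Nat.cast_nonneg _)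
    have e0 : θ * R / 2 ≤ u := by linarith
    have e2 : 8 / θ * (θ * R / 2) ≤ 8 / θ * (u : ℝ) :=
      mul_le_mul_of_nonneg_left e0 (by positivity)
    have e3 : 8 / θ * (θ * R / 2) = 4 * R := by field_simp; ring
    have e4 : (8 / θ + 4) * (u : ℝ) = 8 / θ * u + 4 * u := by ring
    have : ((2 * r + u) + u : ℝ) ≤ NG * u := by linarith
    exact_mod_cast this

open Classical in
/-- **US from the one-point estimate** -/
theorem usF_of {F : ℕ → Temp → Prop} (hOP : OPX) (hBD : NT878.BDrun F) : USF F := by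
  intro c δ d l ε hc hδ hd hl hε
  obtain ⟨ηb, hηb, Rb, hBD⟩ := hBD l (ε / 3) hl (by positivity)
  -- the unit
  obtain ⟨θ, hθ⟩ : ∃ θ : ℝ, θ = min (min (l / 80) (ηb / 80)) (min (δ / 80) (c / 80)) := ⟨_, rfl⟩
  have hθ0 : 0 < θ := by rw [hθ]; positivity
  have t1 : 80 * θ ≤ l := by
    have : θ ≤ l / 80 := by rw [hθ]; exact (min_le_left _ _).trans (min_le_left _ _)
    linarith
  have t2 : 80 * θ ≤ ηb := by
    have : θ ≤ ηb / 80 := by rw [hθ]; exact (min_le_left _ _).trans (min_le_right _ _)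
    linarith
  have t3 : 80 * θ ≤ δ := by
    have : θ ≤ δ / 80 := by rw [hθ]; exact (min_le_right _ _).trans (min_le_left _ _)
    linarith
  have t4 : 80 * θ ≤ c := by
    have : θ ≤ c / 80 := by rw [hθ]; exact (min_le_right _ _).trans (min_le_right _ _)
    linarith
  -- the number of grid points
  obtain ⟨NG, hNG⟩ := exists_nat_ge (8 / θ + 4)
  obtain ⟨K, Rn, hNX⟩ := A801.nx_tight_fin (θ / 2) (ε / 3) (by positivity) (by positivity)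
    (2 * (2 * NG + 1) ^ 2)
  obtain ⟨ε1, hε1⟩ : ∃ ε1 : ℝ, ε1 = ε / (3 * ((2 * NG + 1) ^ 2 * (4 * K) + 1)) := ⟨_, rfl⟩
  have hε10 : 0 < ε1 := by rw [hε1]; positivity
  obtain ⟨η, hη, Ro, hOP⟩ := hOP c (δ / 2) d θ ε1 hc (by positivity) hd hθ0 hε10
  refine ⟨min (η / 16) (θ / 32), by positivity, ?_⟩
  intro η' hη' hle
  have q1 : 16 * η' ≤ η := by have := hle.trans (min_le_left _ _); linarith
  have q2 : 32 * η' ≤ θ := by have := hle.trans (min_le_right _ _); linarith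
  obtain ⟨R1, hR1⟩ := exists_nat_ge (max (400 / θ) (100 / η))
  refine ⟨max (max Rb Rn) (max (max Ro R1) 1), ?_⟩
  intro R hR T hF hfit xS q r r1 r2 k hcr hrR hx hrr2 hr2 hr1
  have g1 : Rb ≤ R := (le_max_left _ _).trans ((le_max_left _ _).trans hR)
  have g2 : Rn ≤ R := (le_max_right _ _).trans ((le_max_left _ _).trans hR)
  have g3 : Ro ≤ R := (le_max_left _ _).trans ((le_max_left _ _).trans ((le_max_right _ _).trans hR))
  have g4 : R1 ≤ R := (le_max_right _ _).trans ((le_max_left _ _).trans ((le_max_right _ _).trans hR))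
  have g5 : 1 ≤ R := (le_max_right _ _).trans ((le_max_right _ _).trans hR)
  have gR : (R1 : ℝ) ≤ R := by exact_mod_cast g4
  have hR0 : (0 : ℝ) < R := by exact_mod_cast g5
  have b1 : 400 ≤ θ * R := by
    have := ((le_max_left _ _).trans hR1).trans gR
    rw [div_le_iff₀ hθ0] at this
    linarith
  have b2 : 100 ≤ η * R := by
    have := ((le_max_right _ _).trans hR1).trans gR
    rw [div_le_iff₀ hη] at this
    linarith
  obtain ⟨v1, v2, v3, v4, v5, v6, v7, v8, hN, u1, u2⟩ := nums (NG := NG) hθ0 t1 t2 t3 t4 q1 q2 hη' b1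
    b2 hrR hcr hr2 hr1 hNG hR0
  obtain ⟨u, hu⟩ : ∃ u : ℕ, u = ⌊θ * R⌋₊ := ⟨_, rfl⟩
  obtain ⟨h, hh⟩ : ∃ h : ℕ, h = ⌊η' * R⌋₊ := ⟨_, rfl⟩
  obtain ⟨h0, hh0⟩ : ∃ h0 : ℕ, h0 = ⌊ηb * R⌋₊ := ⟨_, rfl⟩
  obtain ⟨lR, hlR⟩ : ∃ lR : ℕ, lR = ⌊l * R⌋₊ := ⟨_, rfl⟩
  rw [← hu] at v1 v2 v3 v4 v5 v6 v7 hN u1 u2
  rw [← hh] at v2 v8
  rw [← hh0] at v4
  rw [← hlR] at v3
  have v9 : 1 ≤ ⌊η * R⌋₊ := by omega
  have hr : 1 ≤ r := by omega
  obtain ⟨G, hG⟩ : ∃ G : Finset Pt, G = (grid q (2 * r + u) u NG).filter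
      (fun y => ∀ f ∉ T.faceSet, 20 * u < dn f y) := ⟨_, rfl⟩
  have hGc : G.card ≤ (2 * NG + 1) ^ 2 := by
    rw [hG]
    exact (Finset.card_filter_le _ _).trans (grid_card _ _ _ _)
  obtain ⟨Q, hQ⟩ : ∃ Q : Finset (Pt × ℕ × ℕ), Q = G.image (fun y => (y, 2 * u, 4 * u - 1)) ∪
      G.image (fun y => (y, 4 * u + 1, 6 * u)) := ⟨_, rfl⟩
  have hQc : Q.card ≤ 2 * (2 * NG + 1) ^ 2 := by
    rw [hQ]
    refine (Finset.card_union_le _ _).trans ?_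
    have e1 := (Finset.card_image_le (s := G) (f := fun y => ((y, 2 * u, 4 * u - 1) : Pt × ℕ × ℕ)))
    have e2 := (Finset.card_image_le (s := G) (f := fun y => ((y, 4 * u + 1, 6 * u) : Pt × ℕ × ℕ)))
    omega
  have hQ2 : ∀ p ∈ Q, (p.2.1 : ℝ) + θ / 2 * R ≤ p.2.2 ∧
      (p.2.2 : ℝ) + θ / 2 * R ≤ dF T.faceSet p.1 := by
    have hdF : ∀ y ∈ G, (20 * u : ℝ) ≤ dF T.faceSet y := by
      intro y hy
      rw [hG, Finset.mem_filter] at hy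
      have := le_dF (exists_face_out T hfit) (D := 20 * u) (x := y) fun f hf => (hy.2 f hf).le
      exact_mod_cast this
    intro p hp
    rw [hQ, Finset.mem_union, Finset.mem_image, Finset.mem_image] at hp
    rcases hp with ⟨y, hy, rfl⟩ | ⟨y, hy, rfl⟩
    · have := hdF y hy
      simp only
      rw [Nat.cast_sub (by omega)]
      push_cast
      constructor <;> linarith
    · have := hdF y hy
      simp only
      push_cast
      constructor <;> linarith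
  -- the three bounds
  have B1 := hBD R g1 T hF hfit
  have B2 := hNX R g2 T hfit Q hQc hQ2
  have B3 : Pr T.V (fun ω => ∃ p ∈ G ×ˢ Finset.range (4 * K),
      (SepN T xS ω q r k r1 ⌊d * R⌋₊ ∧
        cand T xS q r k p.1 u h p.2 ω ∈ box q (r2 + 10 * u) ∧
        (∀ f ∉ T.faceSet, θ * R ≤ dn f (cand T xS q r k p.1 u h p.2 ω)) ∧
        cand T xS q r k p.1 u h p.2 ω ∉ SS T (EN T xS ω q r k) ∧
        (∃ w ∈ SS T (EN T xS ω q r k), dn (cand T xS q r k p.1 u h p.2 ω) w ≤ ⌊η * R⌋₊) ∧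
        Conn {x | x ∉ SS T (EN T xS ω q r k)} (v1N T xS q r k ω)
          (cand T xS q r k p.1 u h p.2 ω) ∧
        Vis T xS ω q r k (cand T xS q r k p.1 u h p.2 ω) ⌊η * R⌋₊)) ≤
      ((G ×ˢ Finset.range (4 * K)).card : ℝ) * ε1 :=
    E.Pr_exists_le_card T.V _ _ fun p _ =>
      hOP R g3 T hfit xS q r r1 (r2 + 10 * u) k hcr hrR hx v7 hr1 _ (at_cand p.2)
  have B3' : ((G ×ˢ Finset.range (4 * K)).card : ℝ) * ε1 ≤ ε / 3 := by
    have e1 : ((G ×ˢ Finset.range (4 * K)).card : ℝ) ≤ (2 * NG + 1) ^ 2 * (4 * K) := by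
      rw [Finset.card_product, Finset.card_range]
      have : G.card * (4 * K) ≤ (2 * NG + 1) ^ 2 * (4 * K) := Nat.mul_le_mul_right _ hGc
      exact_mod_cast this
    have e2 : (0 : ℝ) < 3 * ((2 * NG + 1) ^ 2 * (4 * K) + 1) := by positivity
    calc ((G ×ˢ Finset.range (4 * K)).card : ℝ) * ε1 ≤ (2 * NG + 1) ^ 2 * (4 * K) * ε1 :=
          mul_le_mul_of_nonneg_right e1 hε10.le
      _ ≤ ((2 * NG + 1) ^ 2 * (4 * K) + 1) * ε1 := by rw [add_mul]; linarith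
      _ = ε / 3 := by
          rw [hε1]
          field_simp
  -- the inclusion
  have hincl : ∀ ω ∈ DD T.V, (SepN T xS ω q r k r1 ⌊d * R⌋₊ ∧
      Glued T xS ω q r k r2 ⌊η' * R⌋₊ ⌊l * R⌋₊) →
      ((BDev T ω ⌊ηb * R⌋₊ ⌊l * R⌋₊ ∨ ∃ p ∈ Q, K < NX ω p.1 p.2.1 p.2.2) ∨
      ∃ p ∈ G ×ˢ Finset.range (4 * K),
      (SepN T xS ω q r k r1 ⌊d * R⌋₊ ∧
        cand T xS q r k p.1 u h p.2 ω ∈ box q (r2 + 10 * u) ∧
        (∀ f ∉ T.faceSet, θ * R ≤ dn f (cand T xS q r k p.1 u h p.2 ω)) ∧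
        cand T xS q r k p.1 u h p.2 ω ∉ SS T (EN T xS ω q r k) ∧
        (∃ w ∈ SS T (EN T xS ω q r k), dn (cand T xS q r k p.1 u h p.2 ω) w ≤ ⌊η * R⌋₊) ∧
        Conn {x | x ∉ SS T (EN T xS ω q r k)} (v1N T xS q r k ω)
          (cand T xS q r k p.1 u h p.2 ω) ∧
        Vis T xS ω q r k (cand T xS q r k p.1 u h p.2 ω) ⌊η * R⌋₊)) := by
    rintro ω hω ⟨hS, hGl⟩
    by_cases c1 : BDev T ω ⌊ηb * R⌋₊ ⌊l * R⌋₊
    · exact Or.inl (Or.inl c1)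
    by_cases c2 : ∃ p ∈ Q, K < NX ω p.1 p.2.1 p.2.2
    · exact Or.inl (Or.inr c2)
    right
    rw [← hh, ← hlR] at hGl
    rw [← hh0, ← hlR] at c1
    obtain ⟨a, b, n3, n4, m1, m2, m3, m4, m5, m6, m7, m8⟩ := glued_sub hω hr hx hGl c1
      (μ := u) (ρ := 8 * u) (by omega) v3
    set y : Pt := ((u : ℤ) * a, (u : ℤ) * b) with hy
    have hT : ∀ f ∉ T.faceSet, 20 * u < dn f y := fun f hf => by
      have := m8 f hf
      omega
    have hyq : dn q y ≤ r2 + u := by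
      have h5 := J.dn_le_iff.2 (m5 n3 (by omega) (by omega)).1
      have h6 := H904.dn_tri q (gN T xS ω n3) y
      rw [H904.dn_comm (gN T xS ω n3) y] at h6
      omega
    have hyG : y ∈ G := by
      rw [hG, Finset.mem_filter]
      exact ⟨mem_grid (by omega) hN (hyq.trans (by omega)), hT⟩
    push Not at c2
    have k1 : NX ω y (2 * u) (4 * u - 1) ≤ K := by
      refine c2 (y, 2 * u, 4 * u - 1) ?_
      rw [hQ, Finset.mem_union]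
      exact Or.inl (Finset.mem_image_of_mem _ hyG)
    have k2 : NX ω y (4 * u + 1) (6 * u) ≤ K := by
      refine c2 (y, 4 * u + 1, 6 * u) ?_
      rw [hQ, Finset.mem_union]
      exact Or.inr (Finset.mem_image_of_mem (fun y => ((y, 4 * u + 1, 6 * u) : Pt × ℕ × ℕ)) hyG)
    obtain ⟨i, hi, w1, w2, w3, w4, w5⟩ := cand_vis hω hr hx v2 v6 v5 hT k1 k2 m1 m2 m3 m4 m5 m6 m7
    refine ⟨(y, i), Finset.mem_product.2 ⟨hyG, Finset.mem_range.2 hi⟩, hS, ?_, ?_, w2, ?_, w4,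
      w5.mono v8⟩
    · rw [← J.dn_le_iff]
      have h6 := H904.dn_tri q y (cand T xS q r k y u h i ω)
      simp only
      omega
    · intro f hf
      have h6 := hT f hf
      have h7 := m8 f hf
      have h8 := H904.dn_tri f (cand T xS q r k y u h i ω) y
      rw [H904.dn_comm (cand T xS q r k y u h i ω) y] at h8
      have h9 : 2 * u ≤ dn f (cand T xS q r k y u h i ω) := by omega
      have h10 : (2 * u : ℝ) ≤ dn f (cand T xS q r k y u h i ω) := by exact_mod_cast h9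
      simp only
      linarith
    · obtain ⟨w, w6, w7⟩ := w3
      exact ⟨w, w6, w7.trans v9⟩
  refine (E.Pr_mono hincl).trans ?_
  refine (E.Pr_or_le _ _ _).trans ?_
  have B4 := E.Pr_or_le T.V (fun ω => BDev T ω ⌊ηb * R⌋₊ ⌊l * R⌋₊)
    (fun ω => ∃ p ∈ Q, K < NX ω p.1 p.2.1 p.2.2)
  have B1' : Pr T.V (fun ω => BDev T ω ⌊ηb * R⌋₊ ⌊l * R⌋₊) ≤ ε / 3 := B1
  linarith [B3.trans B3']

end Vale.Agent.P155.NT814.US
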