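import Vale.Agent.P155.NT814.US.OPF
import Vale.Agent.P155.NT211.ErrP

/-!
# P155, NT, block US: `OPX` from the one-point estimate at fixed scales (`OPF`)
-/

namespace Vale.Agent.P155.NT814.US

open Finset Vale.Agent.P155 T802 T905 J NT NT733 Function Skel NT802 NT276 NT862

/-- geometric sum -/
theorem geo_sum {b : ℝ} (hb : 0 < b) {R : ℝ} (hR : 0 < R) (m : ℕ) : ∀ L : ℕ,
    ∑ i ∈ Finset.range (L + 1), (((m * 2 ^ i : ℕ) : ℝ) / R) ^ b ≤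
      (1 - (2 : ℝ) ^ (-b))⁻¹ * (((m * 2 ^ L : ℕ) : ℝ) / R) ^ b := by
  have h1 : (2 : ℝ) ^ (-b) < 1 := Real.rpow_lt_one_of_one_lt_of_neg (by norm_num) (by linarith)
  have h0 : (0 : ℝ) < (2 : ℝ) ^ (-b) := by positivity
  obtain ⟨C2, hC2⟩ : ∃ C2 : ℝ, C2 = (1 - (2 : ℝ) ^ (-b))⁻¹ := ⟨_, rfl⟩
  have h2 : C2 * (1 - (2 : ℝ) ^ (-b)) = 1 := by
    rw [hC2]
    exact inv_mul_cancel₀ (by linarith)
  have h3 : 1 ≤ C2 := by
    rw [hC2]
    exact (one_le_inv₀ (by linarith)).2 (by linarith)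
  rw [← hC2]
  intro L
  induction L with
  | zero =>
    rw [Finset.sum_range_one]
    have : (0 : ℝ) ≤ (((m * 2 ^ 0 : ℕ) : ℝ) / R) ^ b := by positivity
    nlinarith
  | succ L ih =>
    rw [Finset.sum_range_succ]
    have e : (((m * 2 ^ L : ℕ) : ℝ) / R) ^ b =
        (2 : ℝ) ^ (-b) * (((m * 2 ^ (L + 1) : ℕ) : ℝ) / R) ^ b := by
      have e1 : (((m * 2 ^ (L + 1) : ℕ) : ℝ) / R) = 2 * (((m * 2 ^ L : ℕ) : ℝ) / R) := by
        push_cast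
        ring
      rw [e1, Real.mul_rpow (by norm_num) (by positivity), ← mul_assoc,
        ← Real.rpow_add (by norm_num)]
      simp
    rw [e] at ih
    have e2 : C2 * ((2 : ℝ) ^ (-b) * (((m * 2 ^ (L + 1) : ℕ) : ℝ) / R) ^ b) +
        (((m * 2 ^ (L + 1) : ℕ) : ℝ) / R) ^ b =
        (1 + C2 * (2 : ℝ) ^ (-b)) * (((m * 2 ^ (L + 1) : ℕ) : ℝ) / R) ^ b := by ring
    have e3 : 1 + C2 * (2 : ℝ) ^ (-b) = C2 := by linarith
    rw [e3] at e2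
    linarith

/-- dyadic scales -/
theorem dyadic {m B : ℕ} (hm : 1 ≤ m) : ∃ L : ℕ, L ≤ Nat.log 2 B + 1 ∧
    (∀ i < L, m * 2 ^ i ≤ B) ∧ ∀ x : ℕ, m ≤ x → x ≤ B → ∃ i < L, m * 2 ^ i ≤ x ∧ x ≤ 2 * (m * 2 ^ i) := by
  classical
  have hex : ∃ L, B < m * 2 ^ L := by
    refine ⟨B, ?_⟩
    calc B < 2 ^ B := Nat.lt_two_pow_self
      _ ≤ m * 2 ^ B := Nat.le_mul_of_pos_left _ hm
  refine ⟨Nat.find hex, ?_, ?_, ?_⟩
  · apply Nat.find_min'
    have h1 : B < 2 ^ (Nat.log 2 B + 1) := Nat.lt_pow_succ_log_self (by norm_num) B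
    exact h1.trans_le (Nat.le_mul_of_pos_left _ hm)
  · intro i hi
    exact not_lt.1 (Nat.find_min hex hi)
  · intro x h1 h2
    have hex' : ∃ j, x < m * 2 ^ j := ⟨Nat.find hex, lt_of_le_of_lt h2 (Nat.find_spec hex)⟩
    have h3 := Nat.find_spec hex'
    have h4 : 0 < Nat.find hex' := by
      by_contra hc
      have : Nat.find hex' = 0 := by omega
      rw [this] at h3
      simp at h3
      omega
    obtain ⟨j, hj⟩ : ∃ j, Nat.find hex' = j + 1 := ⟨Nat.find hex' - 1, by omega⟩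
    have h5 : ¬ x < m * 2 ^ j := Nat.find_min hex' (by omega)
    rw [hj, pow_succ] at h3
    have h6 : Nat.find hex' ≤ Nat.find hex :=
      Nat.find_min' hex' (lt_of_le_of_lt h2 (Nat.find_spec hex))
    refine ⟨j, by omega, not_lt.1 h5, ?_⟩
    have : m * (2 ^ j * 2) = 2 * (m * 2 ^ j) := by ring
    omega

/-- `log R · R^{-b}` is small -/
theorem ev_log {b C e : ℝ} (hb : 0 < b) (he : 0 < e) : ∃ R0 : ℕ, 1 ≤ R0 ∧ ∀ R : ℕ, R0 ≤ R →
    ∀ B : ℕ, B ≤ 3 * R → C * ((Nat.log 2 B + 1 : ℕ) : ℝ) * (R : ℝ) ^ (-b) ≤ e := by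
  have h1 : Filter.Tendsto (fun x : ℝ => |C| * (Real.log x / x ^ b)) Filter.atTop (nhds 0) := by
    have := (isLittleO_log_rpow_atTop hb).tendsto_div_nhds_zero
    simpa using this.const_mul |C|
  have h2 : Filter.Tendsto (fun x : ℝ => |C| * x ^ (-b)) Filter.atTop (nhds 0) := by
    simpa using (tendsto_rpow_neg_atTop hb).const_mul |C|
  have h3 := ((h1.const_mul 2).add (h2.const_mul 4))
  simp only [mul_zero, add_zero] at h3
  obtain ⟨x0, hx0⟩ := Filter.eventually_atTop.1 ((h3.eventually (gt_mem_nhds he)).and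
    (Filter.eventually_ge_atTop 1))
  refine ⟨⌈x0⌉₊ + 1, by omega, ?_⟩
  intro R hR B hB
  have hRx : x0 ≤ (R : ℝ) := (Nat.le_ceil x0).trans (by exact_mod_cast (by omega : ⌈x0⌉₊ ≤ R))
  obtain ⟨g1, g2⟩ := hx0 R hRx
  have hR0 : (0 : ℝ) < R := by linarith
  have hp : (0 : ℝ) < (R : ℝ) ^ (-b) := by positivity
  -- the logarithm
  have hlog : ((Nat.log 2 B + 1 : ℕ) : ℝ) ≤ 2 * Real.log R + 4 := by
    have e0 : (0 : ℝ) < Real.log 2 := Real.log_pos (by norm_num)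
    have e1 : (1 / 2 : ℝ) ≤ Real.log 2 := by
      have := Real.log_two_gt_d9
      linarith
    by_cases hB0 : B = 0
    · rw [hB0]
      simp
      have := Real.log_nonneg g2
      linarith
    have e2 : 2 ^ Nat.log 2 B ≤ B := Nat.pow_log_le_self 2 hB0
    have e3 : ((2 : ℝ) ^ Nat.log 2 B) ≤ 3 * R := by
      have : ((2 ^ Nat.log 2 B : ℕ) : ℝ) ≤ ((3 * R : ℕ) : ℝ) := by exact_mod_cast e2.trans hB
      push_cast at this
      exact this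
    have e4 := Real.log_le_log (by positivity) e3
    rw [Real.log_pow, Real.log_mul (by norm_num) hR0.ne'] at e4
    have e5 : Real.log 3 ≤ 3 / 2 := by
      have h8 : Real.log 3 ≤ Real.log 4 := Real.log_le_log (by norm_num) (by norm_num)
      have h9 : Real.log 4 = 2 * Real.log 2 := by
        rw [show (4 : ℝ) = 2 ^ 2 by norm_num, Real.log_pow]
        norm_num
      have := Real.log_two_lt_d9
      linarith
    push_cast
    have e6 : (0 : ℝ) ≤ (Nat.log 2 B : ℝ) := Nat.cast_nonneg _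
    nlinarith
  have e7 : C * ((Nat.log 2 B + 1 : ℕ) : ℝ) ≤ |C| * (2 * Real.log R + 4) := by
    calc C * ((Nat.log 2 B + 1 : ℕ) : ℝ) ≤ |C| * ((Nat.log 2 B + 1 : ℕ) : ℝ) :=
          mul_le_mul_of_nonneg_right (le_abs_self C) (Nat.cast_nonneg _)
      _ ≤ _ := mul_le_mul_of_nonneg_left hlog (abs_nonneg C)
  have e8 := mul_le_mul_of_nonneg_right e7 hp.le
  refine e8.trans (le_trans (le_of_eq ?_) g1.le)
  rw [Real.rpow_neg hR0.le]
  field_simp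

/-- the measurable event, in terms of the explored set -/
def PX (T : Temp) (q : Pt) (r2 D N s m : ℕ) (θR : ℝ) (i : ℕ) (E : Set Pt) (v₁ z : Pt) : Prop :=
  (z ∈ box q r2 ∧ (∀ f ∉ T.faceSet, θR ≤ dn f z) ∧ z ∉ SS T E ∧ (∃ w ∈ SS T E, dn z w ≤ D) ∧
      Conn {x | x ∉ SS T E} v₁ z ∧ (∃ π, Lab T E v₁ z D π)) ∧
      (∃ y, BalF T E v₁ z D N s m y) ∧ m * 2 ^ i ≤ dF (OE T E) (pick (BalF T E v₁ z D N s m)) ∧
        dF (OE T E) (pick (BalF T E v₁ z D N s m)) ≤ 2 * (m * 2 ^ i)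

/-- the measurable event -/
def SX (T : Temp) (xS : ℤ) (q : Pt) (r k r1 dR r2 D N s m : ℕ) (θR : ℝ) (z : Conf → Pt) (i : ℕ)
    (ω : Conf) : Prop :=
  NT211.DomN T xS q r k r1 dR ω ∧
    PX T q r2 D N s m θR i (EN T xS ω q r k) (v1N T xS q r k ω) (z ω)

section

variable {T : Temp} {xS : ℤ} {q : Pt} {r k r1 dR r2 D N s m : ℕ} {θR : ℝ} {z : Conf → Pt} {i : ℕ}
  {ω : Conf}

theorem at_SX (hz : NT905.At (NT905.tE T.V xS q r k) z) :
    NT905.At (NT905.tE T.V xS q r k) (SX T xS q r k r1 dR r2 D N s m θR z i) :=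
  (NT211.domN_at (T := T) (xS := xS) (q := q) (r := r) (k := k) (r1 := r1)
      (d := dR)).comp₂ (fun a b => a ∧ b)
      ((at_EN (T := T) (xS := xS) (q := q) (r := r) (k := k)).comp₂
        (fun E p => PX T q r2 D N s m θR i E p.1 p.2) (at_v1.comp₂ (fun a b => (a, b)) hz))

theorem SX.hyp (hω : ω ∈ DD T.V) (hr : 1 ≤ r) (hx : (16 * r : ℤ) ≤ |q.1 - xS|)
    (h : SX T xS q r k r1 dR r2 D N s m θR z i ω) :
    OPHyp T xS ω q r r1 r2 k dR θR D N s (m * 2 ^ i) (z ω) (xB T xS q r k z D N s m ω) := by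
  obtain ⟨h2, ⟨p1, p2, p3, p4, p5, p6⟩, p7, p8, p9⟩ := h
  obtain ⟨h4, h5⟩ := (NT211.domN_iff hω hr hx).1 h2
  rw [eN_eq] at h4
  have h6 := xB_spec p7
  exact ⟨h4, h5, p1, p2, p3, p4, p5, p6, ⟨h6.1, h6.2.1, h6.2.2.1, h6.2.2.2.1, h6.2.2.2.2.1, p8⟩, p9⟩

/-- a ball point at the wall: the balanced face is in one of the dyadic scales -/
theorem SX.mk' (hω : ω ∈ DD T.V) (hr : 1 ≤ r) (hx : (16 * r : ℤ) ≤ |q.1 - xS|)
    (h1 : eN T xS ω q r k + 1 < xN T xS ω q r k) (hD : 4 * (D + 1) ≤ s) {L : ℕ}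
    (hL : ∀ x : ℕ, m ≤ x → x ≤ 3 * s → ∃ i < L, m * 2 ^ i ≤ x ∧ x ≤ 2 * (m * 2 ^ i))
    (a1 : SepN T xS ω q r k r1 dR) (a2 : z ω ∈ box q r2) (a3 : ∀ f ∉ T.faceSet, θR ≤ dn f (z ω))
    (a4 : z ω ∉ SS T (EN T xS ω q r k)) (a5 : ∃ w ∈ SS T (EN T xS ω q r k), dn (z ω) w ≤ D)
    (a6 : Conn {x | x ∉ SS T (EN T xS ω q r k)} (v1N T xS q r k ω) (z ω))
    (hbal : ∃ y, BalF T (EN T xS ω q r k) (v1N T xS q r k ω) (z ω) D N s m y) :
    ∃ i ∈ Finset.range L, SX T xS q r k r1 dR r2 D N s m θR z i ω := by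
  have hxM : xN T xS ω q r k ≤ Tm.M T.V xS ω := exi_le _
  have hsp := xB_spec (z := z) hbal
  obtain ⟨w, w1, w2⟩ := a5
  have hup : dF (OE T (EN T xS ω q r k)) (xB T xS q r k z D N s m ω) ≤ 3 * s := by
    have e1 : w ∉ OE T (EN T xS ω q r k) := fun h => NT924.corner_free h (by simp [corners]) w1
    have e2 := G45.dF_le (x := xB T xS q r k z D N s m ω) e1
    have e3 := G45.dn_tri (xB T xS q r k z D N s m ω) (z ω) w
    have e4 := hsp.2.1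
    rw [G45.dn_comm (z ω) (xB T xS q r k z D N s m ω)] at e4
    omega
  obtain ⟨i, i1, i2, i3⟩ := hL _ hsp.2.2.2.2.2 hup
  refine ⟨i, Finset.mem_range.2 i1, (NT211.domN_iff hω hr hx).2 ⟨by rw [eN_eq]; omega, a1⟩, ?_⟩
  exact ⟨⟨a2, a3, a4, ⟨w, w1, w2⟩, a6, lab_ex hω hr hx h1 ⟨w, w1, w2⟩ a6⟩, hbal, i2, i3⟩

end

/-- the numbers -/
theorem opx_nums {K : ℕ} {σ ρ : ℝ} {R s D N : ℕ} (hK4 : 4 ≤ K) (hσ0 : 0 < σ)
    (hρ : 0 < ρ) (s4 : 3 * σ ≤ 1) (s5 : 8 * K * σ ≤ ρ) (hR0 : (0 : ℝ) < R)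
    (b2 : 8 * K + 8 ≤ σ * R) (b3 : 8 * K + 8 ≤ ρ * R) (hs : s = ⌊σ * R⌋₊)
    (hD : D = ⌊σ / (4 * K) * R⌋₊) (hN : N = ⌊ρ * R⌋₊) : (s : ℝ) ≤ σ * R ∧ (N : ℝ) ≤ ρ * R ∧
    K * (D + 1) ≤ s ∧ K * (2 * s + 1) ≤ N ∧ 4 * (D + 1) ≤ s ∧ 4 * (2 * s + 1) ≤ N ∧
    3 * s ≤ 3 * R := by
  have hK0 : (0 : ℝ) < K := by
    have : 0 < K := by omega
    exact_mod_cast this
  have u1 : (s : ℝ) ≤ σ * R := by rw [hs]; exact Nat.floor_le (by positivity)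
  have u2 : σ * R < s + 1 := by rw [hs]; exact Nat.lt_floor_add_one _
  have u3 : (D : ℝ) ≤ σ / (4 * K) * R := by rw [hD]; exact Nat.floor_le (by positivity)
  have u4 : ρ * R < N + 1 := by rw [hN]; exact Nat.lt_floor_add_one _
  have u5 : (N : ℝ) ≤ ρ * R := by rw [hN]; exact Nat.floor_le (by positivity)
  have k1 : K * (D + 1) ≤ s := by
    have h1 : (K : ℝ) * D ≤ σ * R / 4 := by
      calc (K : ℝ) * D ≤ K * (σ / (4 * K) * R) := mul_le_mul_of_nonneg_left u3 hK0.le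
        _ = σ * R / 4 := by field_simp
    have h2 : (K : ℝ) * (D + 1) ≤ s := by nlinarith
    exact_mod_cast h2
  have k2 : K * (2 * s + 1) ≤ N := by
    have h1 : (K : ℝ) * s ≤ K * (σ * R) := mul_le_mul_of_nonneg_left u1 hK0.le
    have h2 : 8 * K * σ * R ≤ ρ * R := mul_le_mul_of_nonneg_right s5 hR0.le
    have h3 : (K : ℝ) * (2 * s + 1) ≤ N := by nlinarith
    exact_mod_cast h3
  refine ⟨u1, u5, k1, k2, (Nat.mul_le_mul_right _ hK4).trans k1,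
    (Nat.mul_le_mul_right _ hK4).trans k2, ?_⟩
  have : (s : ℝ) ≤ R := by nlinarith
  have : s ≤ R := by exact_mod_cast this
  omega

/-- the sum over the scales -/
theorem opx_sum {C b C2 e3 ε σ : ℝ} {R m s L : ℕ} (hb : 0 < b) (hC : 0 ≤ C) (hC20 : 0 < C2)
    (hC2 : C2 = (1 - (2 : ℝ) ^ (-b))⁻¹) (hε : 0 < ε) (he3 : e3 = ε / (3 * (C * C2 + 1)))
    (hR0 : (0 : ℝ) < R) (s7 : (3 * σ) ^ b ≤ e3) (u1 : (s : ℝ) ≤ σ * R)
    (hlog : C * ((Nat.log 2 (3 * s) + 1 : ℕ) : ℝ) * (R : ℝ) ^ (-b) ≤ ε / 3)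
    (hL1 : L ≤ Nat.log 2 (3 * s) + 1) (hL2 : ∀ i < L, m * 2 ^ i ≤ 3 * s) :
    ∑ i ∈ Finset.range L, C * ((R : ℝ) ^ (-b) + (((m * 2 ^ i : ℕ) : ℝ) / R) ^ b) ≤
      ε / 3 + ε / 3 := by
  rw [← Finset.mul_sum, Finset.sum_add_distrib, Finset.sum_const, Finset.card_range,
    nsmul_eq_mul, mul_add]
  refine add_le_add ?_ ?_
  · refine le_trans ?_ hlog
    rw [← mul_assoc]
    refine mul_le_mul_of_nonneg_right (mul_le_mul_of_nonneg_left ?_ hC) (by positivity)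
    exact_mod_cast hL1
  · rcases Nat.eq_zero_or_pos L with h0 | h0
    · rw [h0, Finset.range_zero, Finset.sum_empty, mul_zero]
      positivity
    obtain ⟨L', rfl⟩ : ∃ L', L = L' + 1 := ⟨L - 1, by omega⟩
    have h1 := geo_sum hb hR0 m L'
    rw [← hC2] at h1
    have h2 : (((m * 2 ^ L' : ℕ) : ℝ) / R) ^ b ≤ (3 * σ) ^ b := by
      refine Real.rpow_le_rpow (by positivity) ?_ hb.le
      rw [div_le_iff₀ hR0]
      have h3 : ((m * 2 ^ L' : ℕ) : ℝ) ≤ ((3 * s : ℕ) : ℝ) := by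
        exact_mod_cast hL2 L' (by omega)
      push_cast at h3 ⊢
      linarith
    have h4 : C * (C2 * e3) ≤ ε / 3 := by
      rw [he3]
      have : C * (C2 * (ε / (3 * (C * C2 + 1)))) = (C * C2) * ε / (3 * (C * C2 + 1)) := by ring
      rw [this, div_le_div_iff₀ (by positivity) (by norm_num)]
      nlinarith [mul_nonneg hC hC20.le]
    exact le_trans (mul_le_mul_of_nonneg_left (h1.trans
      (mul_le_mul_of_nonneg_left (h2.trans s7) hC20.le)) hC) h4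

/-- the choice of the scale of the ring -/
theorem opx_sigma {c δ θ ρ e3 b : ℝ} {K : ℕ} (hc : 0 < c) (hδ : 0 < δ) (hθ : 0 < θ) (hρ : 0 < ρ)
    (he30 : 0 < e3) (hb : 0 < b) (hK0 : (0 : ℝ) < K) : ∃ σ : ℝ, 0 < σ ∧ 8 * σ ≤ c ∧ 8 * σ ≤ δ ∧
    8 * σ ≤ θ ∧ 3 * σ ≤ 1 ∧ 8 * K * σ ≤ ρ ∧ (3 * σ) ^ b ≤ e3 := by
  refine ⟨min (min (min (c / 8) (δ / 8)) (min (θ / 8) (1 / 3)))
    (min (ρ / (8 * K)) (e3 ^ (1 / b) / 3)), by positivity, ?_, ?_, ?_, ?_, ?_, ?_⟩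
  · have : min (min (min (c / 8) (δ / 8)) (min (θ / 8) (1 / 3)))
        (min (ρ / (8 * K)) (e3 ^ (1 / b) / 3)) ≤ c / 8 :=
      (min_le_left _ _).trans ((min_le_left _ _).trans (min_le_left _ _))
    linarith
  · have : min (min (min (c / 8) (δ / 8)) (min (θ / 8) (1 / 3)))
        (min (ρ / (8 * K)) (e3 ^ (1 / b) / 3)) ≤ δ / 8 :=
      (min_le_left _ _).trans ((min_le_left _ _).trans (min_le_right _ _))
    linarith
  · have : min (min (min (c / 8) (δ / 8)) (min (θ / 8) (1 / 3)))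
        (min (ρ / (8 * K)) (e3 ^ (1 / b) / 3)) ≤ θ / 8 :=
      (min_le_left _ _).trans ((min_le_right _ _).trans (min_le_left _ _))
    linarith
  · have : min (min (min (c / 8) (δ / 8)) (min (θ / 8) (1 / 3)))
        (min (ρ / (8 * K)) (e3 ^ (1 / b) / 3)) ≤ 1 / 3 :=
      (min_le_left _ _).trans ((min_le_right _ _).trans (min_le_right _ _))
    linarith
  · have : min (min (min (c / 8) (δ / 8)) (min (θ / 8) (1 / 3)))
        (min (ρ / (8 * K)) (e3 ^ (1 / b) / 3)) ≤ ρ / (8 * K) :=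
      (min_le_right _ _).trans (min_le_left _ _)
    rw [le_div_iff₀ (by positivity)] at this
    linarith
  · have h1 : min (min (min (c / 8) (δ / 8)) (min (θ / 8) (1 / 3)))
        (min (ρ / (8 * K)) (e3 ^ (1 / b) / 3)) ≤ e3 ^ (1 / b) / 3 :=
      (min_le_right _ _).trans (min_le_right _ _)
    refine (Real.rpow_le_rpow (by positivity) (by linarith :
      3 * min (min (min (c / 8) (δ / 8)) (min (θ / 8) (1 / 3)))
        (min (ρ / (8 * K)) (e3 ^ (1 / b) / 3)) ≤ e3 ^ (1 / b)) hb.le).trans (le_of_eq ?_)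
    rw [← Real.rpow_mul he30.le, one_div, inv_mul_cancel₀ hb.ne', Real.rpow_one]

open Classical in
/-- **`OPX` from `OPF`** -/
theorem opx_of_opf (h : OPF) : OPX := by
  intro c δ d θ ε hc hδ hd hθ hε
  obtain ⟨K, hK4, hbm⟩ := NT924.bm_bal
  obtain ⟨ρ, hρ, b, hb, C, hC, R1, hOP⟩ := h c δ d θ (1 / 1024) hc hδ hd hθ (by norm_num) (by norm_num)
  have hK0 : (0 : ℝ) < K := by
    have : 0 < K := by omega
    exact_mod_cast this
  have q1 : (2 : ℝ) ^ (-b) < 1 := Real.rpow_lt_one_of_one_lt_of_neg (by norm_num) (by linarith)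
  obtain ⟨C2, hC2⟩ : ∃ C2 : ℝ, C2 = (1 - (2 : ℝ) ^ (-b))⁻¹ := ⟨_, rfl⟩
  have hC20 : 0 < C2 := by
    rw [hC2]
    exact inv_pos.2 (by linarith)
  obtain ⟨e3, he3⟩ : ∃ e3 : ℝ, e3 = ε / (3 * (C * C2 + 1)) := ⟨_, rfl⟩
  have he30 : 0 < e3 := by rw [he3]; positivity
  obtain ⟨σ, hσ0, s1, s2, s3, s4, s5, s7⟩ := opx_sigma hc hδ hθ hρ he30 hb hK0
  obtain ⟨Cb, hCb, R2, hR2⟩ := hbm (1 / 1024) 1 c δ θ σ (by norm_num) (by norm_num) one_pos hc hδ hθ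
    hσ0 s1 s2 s3 (by linarith)
  obtain ⟨R3, hR31, hR3⟩ := ev_log (C := C) hb (e := ε / 3) (by positivity)
  -- large `R`
  obtain ⟨R4, hR4⟩ := exists_nat_ge (max (max (3 * Cb / ε) ((8 * K + 8) / σ)) (max ((8 * K + 8) / ρ)
    (1 / c)))
  refine ⟨σ / (4 * K), by positivity, max (max R1 R2) (max R3 R4), ?_⟩
  intro R hR T hfit xS q r r1 r2 k hcr hrR hx hr2 hr1 z hz
  have g1 : R1 ≤ R := (le_max_left _ _).trans ((le_max_left _ _).trans hR)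
  have g2 : R2 ≤ R := (le_max_right _ _).trans ((le_max_left _ _).trans hR)
  have g3 : R3 ≤ R := (le_max_left _ _).trans ((le_max_right _ _).trans hR)
  have g4 : R4 ≤ R := (le_max_right _ _).trans ((le_max_right _ _).trans hR)
  have g5 : (R4 : ℝ) ≤ R := by exact_mod_cast g4
  have g6 : 1 ≤ R := hR31.trans g3
  have hR0 : (0 : ℝ) < R := by exact_mod_cast g6
  have b1 : 3 * Cb ≤ ε * R := by
    have := ((le_max_left _ _).trans ((le_max_left _ _).trans hR4)).trans g5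
    rw [div_le_iff₀ hε] at this
    linarith
  have b2 : 8 * K + 8 ≤ σ * R := by
    have := ((le_max_right _ _).trans ((le_max_left _ _).trans hR4)).trans g5
    rw [div_le_iff₀ hσ0] at this
    linarith
  have b3 : 8 * K + 8 ≤ ρ * R := by
    have := ((le_max_left _ _).trans ((le_max_right _ _).trans hR4)).trans g5
    rw [div_le_iff₀ hρ] at this
    linarith
  have b4 : 1 ≤ c * R := by
    have := ((le_max_right _ _).trans ((le_max_right _ _).trans hR4)).trans g5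
    rw [div_le_iff₀ hc] at this
    linarith
  have hr : 1 ≤ r := by
    have : (1 : ℝ) ≤ r := b4.trans hcr
    exact_mod_cast this
  obtain ⟨Bad, hBad, hgood⟩ := hR2 R g2 T hfit
  obtain ⟨s, hs⟩ : ∃ s : ℕ, s = ⌊σ * R⌋₊ := ⟨_, rfl⟩
  obtain ⟨D, hD⟩ : ∃ D : ℕ, D = ⌊σ / (4 * K) * R⌋₊ := ⟨_, rfl⟩
  obtain ⟨N, hN⟩ : ∃ N : ℕ, N = ⌊ρ * R⌋₊ := ⟨_, rfl⟩
  obtain ⟨m, hm⟩ : ∃ m : ℕ, m = ⌈(R : ℝ) ^ (1 / 1024 : ℝ)⌉₊ := ⟨_, rfl⟩
  obtain ⟨u1, u5, k1, k2, k3, k4, k5⟩ := opx_nums hK4 hσ0 hρ s4 s5 hR0 b2 b3 hs hD hN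
  have hm1 : 1 ≤ m := by
    rw [hm]
    exact Nat.one_le_ceil_iff.2 (by positivity)
  have hmR : (R : ℝ) ^ (1 / 1024 : ℝ) ≤ m := by rw [hm]; exact Nat.le_ceil _
  obtain ⟨L, hL1, hL2, hL3⟩ := dyadic (B := 3 * s) hm1
  -- one scale
  have hone : ∀ i ∈ Finset.range L, Pr T.V (fun ω => SX T xS q r k r1 ⌊d * R⌋₊ r2 D N s m (θ * R) z
      i ω ∧ Vis T xS ω q r k (z ω) D) ≤
      C * ((R : ℝ) ^ (-b) + (((m * 2 ^ i : ℕ) : ℝ) / R) ^ b) := by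
    intro i hi
    rw [Finset.mem_range] at hi
    have h1 : 1 ≤ 2 ^ i := Nat.one_le_two_pow
    refine hOP R g1 T hfit xS q r r1 r2 k hcr hrR hx hr2 hr1 D N s (m * 2 ^ i) u5 k3 k4 ?_
      (hL2 i hi) (SX T xS q r k r1 ⌊d * R⌋₊ r2 D N s m (θ * R) z i) z
      (xB T xS q r k z D N s m) (at_SX hz) hz (at_xB hz D N s m)
      (fun ω hω hS => hS.hyp hω hr hx)
    refine hmR.trans ?_
    exact_mod_cast Nat.le_mul_of_pos_right m h1
  -- the inclusion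
  have hincl : ∀ ω ∈ DD T.V, (SepN T xS ω q r k r1 ⌊d * R⌋₊ ∧
    z ω ∈ box q r2 ∧ (∀ f ∉ T.faceSet, θ * R ≤ dn f (z ω)) ∧
    z ω ∉ SS T (EN T xS ω q r k) ∧
    (∃ w ∈ SS T (EN T xS ω q r k), dn (z ω) w ≤ D) ∧
    Conn {x | x ∉ SS T (EN T xS ω q r k)} (v1N T xS q r k ω) (z ω) ∧
    Vis T xS ω q r k (z ω) D) →
    (Bad ω ∨ ∃ i ∈ Finset.range L, SX T xS q r k r1 ⌊d * R⌋₊ r2 D N s m (θ * R) z
      i ω ∧ Vis T xS ω q r k (z ω) D) := by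
    rintro ω hω ⟨a1, a2, a3, a4, a5, a6, a7⟩
    by_cases hbad : Bad ω
    · exact Or.inl hbad
    right
    have h1 : eN T xS ω q r k + 1 < xN T xS ω q r k := by
      obtain ⟨n, n1, n2, -⟩ := a7
      omega
    have hbal := hgood ω hω hbad xS q r r1 r2 k hcr hrR hr hx hr2 hr1 (z ω) a2 a3 a4 D N a5 a6 h1
      (by rw [← hs]; exact k1) (by rw [← hs]; exact k2)
    rw [← hs, ← hm] at hbal
    obtain ⟨i, i1, i2⟩ := SX.mk' hω hr hx h1 k3 hL3 a1 a2 a3 a4 a5 a6 hbal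
    exact ⟨i, i1, i2, a7⟩
  have hfin : Pr T.V (fun ω => ∃ i ∈ Finset.range L, SX T xS q r k r1 ⌊d * R⌋₊ r2 D N s m (θ * R) z
      i ω ∧ Vis T xS ω q r k (z ω) D) ≤ ε / 3 + ε / 3 := by
    refine (E.Pr_exists_le T.V (Finset.range L) (fun i ω => SX T xS q r k r1 ⌊d * R⌋₊ r2 D N s m
      (θ * R) z i ω ∧ Vis T xS ω q r k (z ω) D)).trans ?_
    exact (Finset.sum_le_sum hone).trans (opx_sum hb hC hC20 hC2 hε he3 hR0 s7 u1
      (hR3 R g3 (3 * s) k5) hL1 hL2)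
  have hB3 : Cb * (R : ℝ) ^ (-1 : ℝ) ≤ ε / 3 := by
    rw [Real.rpow_neg hR0.le, Real.rpow_one, ← div_eq_mul_inv, div_le_iff₀ hR0]
    linarith
  rw [← hD]
  refine (E.Pr_mono hincl).trans ?_
  refine (E.Pr_or_le _ _ _).trans ?_
  linarith [hBad.trans hB3]

end Vale.Agent.P155.NT814.US
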